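import Vale.Agent.P241Z.Main

/-!
# P241: the chromatic Smith problem for finite `p`-local genuine `G`-spectra

For every prime `p`, every finite `p`-group `G`, every `H ≤ G` and every `n` the chromatic fixed
point loss, defined with all finite `p`-local genuine `G`-spectra (retracts included) and their
geometric fixed points, is `r_n(G, H) = ℓ(G, H)`.
-/

open CategoryTheory

namespace Vale.Agent.Results.P241.AGenuineSpectra

open Vale.Agent.P251.St (SHCat Susp FC Map nonempty_susp)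
open Vale.Agent.P241Y
open Vale.Agent.P241Z (IsDeg IsRes regLine exists_isDeg)

theorem result :
    (∀ m, ∃ d, IsDeg m d) ∧
    (∀ (G : Type) [Group G] [Finite G] X, GCell X → GCell (X.prod (regLine G)) ∧
      ∀ H, FC (X.fix H) ∧ ∀ Y (f : GMap X Y), ∃ g : Map _ _, IsRes H f.fn g.toFun) ∧
    (∃ T : SHCat, Nonempty (Susp T)) ∧
    ∀ (T : SHCat) (S : Susp T) (p : ℕ), p.Prime →
      (∃ K : ℕ → RingA T, ∀ i, IsMoravaK S p i (K i)) ∧
      ∀ (G : Type) [Group G] [Finite G] (H : Subgroup G),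
        (∃ Φ : FinSp G p ⥤ T.C, IsGeomFix S H Φ) ∧
        ∀ K : ℕ → RingA T, (∀ i, IsMoravaK S p i (K i)) → IsPGroup p G →
          ∀ Φ Ψ : FinSp G p ⥤ T.C, IsGeomFix S H Φ → IsGeomFix S ⊤ Ψ → ∀ n,
            loss K Φ.obj Ψ.obj n = ell H ∧ ∀ r, Forces K Φ.obj Ψ.obj n r ↔ ell H ≤ r :=
  ⟨exists_isDeg, spaces, nonempty_susp, fun _ S _ hp => ⟨exists_moravaK S hp, fun _ _ _ H =>
    ⟨exists_isGeomFix S H hp.one_lt.ne', smith hp H⟩⟩⟩

end Vale.Agent.Results.P241.AGenuineSpectra
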